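import Vale.Agent.P292.Main
import Vale.Agent.P280.Stmt

open Vale.Agent.P271 Vale.Agent.P276 Vale.Agent.P292 Vale.Agent.P280

theorem Vale.Agent.Results.P280.A_contact.result (K : Type) [Field K] [Algebra ℂ K] (N n : ℕ)
    (t : Fin (N + 1) → K) (hK : IsFunctionField t) (hn : 1 ≤ n)
    (hX : IsSmoothOfDim t (2 * n + 1)) (m : ℕ) (hm : 0 < m) (hF : AntiCanonical t (2 * n + 1) m)
    (θ : Derivation ℂ K K →ₗ[K] K) (hθ : IsContact t n θ) : IsRatHomog t := by
  obtain ⟨G, i1, i2, i3, M, b, e, x, he, -, hx, hO, -⟩ :=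
    adjoint_of_contact ⟨hK, hX, hm, hF⟩ hn hθ
  have hs : (RepStep G : G → G → Prop) = AdStep := by
    funext y y'
    apply propext
    constructor
    · rintro ⟨a, k, -, h1, h2⟩
      exact ⟨a, k, h1, h2⟩
    · rintro ⟨a, k, h1, h2⟩
      exact ⟨a, k, ⟨k, h1⟩, h1, h2⟩
  refine ⟨G, i1, i2, Module.Finite.of_basis b, inferInstance, G, inferInstance, inferInstance,
    inferInstance, inferInstance, M, b, e, x, he, fun w => ?_, hO⟩
  rw [hs]
  exact hx w
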